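import Vale.Agent.P344.Forms

/-!
Every circuit computing `F_n` has at least `2 n - 2` gates of the form `u ± v`.

The invariant: keep a labelling of the inputs such that the support of each computed form lies in
one label class.  An addition merges at most two classes.  A form proportional to a row of `F_n`
has full support.  Distinct rows are non-proportional, so the first form proportional to a given
row is produced by its own addition (a scalar gate produces no new projective point).
-/

namespace Vale.Agent.P344

open Finset

lemma addCount_add_smulCount (gs : List Gate) : addCount gs + smulCount gs = gs.length := by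
  induction gs with
  | nil => rfl
  | cons g gs ih =>
    cases g <;> simp [addCount, smulCount, isLinearCombination, List.countP_cons] at ih ⊢ <;> omega

@[simp] lemma addCount_nil : addCount [] = 0 := rfl
@[simp] lemma smulCount_nil : smulCount [] = 0 := rfl

lemma addCount_cons_add (a b : ℕ) (gs : List Gate) :
    addCount (.add a b :: gs) = addCount gs + 1 := by
  simp [addCount, isLinearCombination, List.countP_cons]
lemma addCount_cons_sub (a b : ℕ) (gs : List Gate) :
    addCount (.sub a b :: gs) = addCount gs + 1 := by
  simp [addCount, isLinearCombination, List.countP_cons]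
lemma addCount_cons_smul (c : ℂ) (a : ℕ) (gs : List Gate) :
    addCount (.smul c a :: gs) = addCount gs := by
  simp [addCount, isLinearCombination, List.countP_cons]
lemma smulCount_cons_add (a b : ℕ) (gs : List Gate) :
    smulCount (.add a b :: gs) = smulCount gs := by
  simp [smulCount, isLinearCombination, List.countP_cons]
lemma smulCount_cons_sub (a b : ℕ) (gs : List Gate) :
    smulCount (.sub a b :: gs) = smulCount gs := by
  simp [smulCount, isLinearCombination, List.countP_cons]
lemma smulCount_cons_smul (c : ℂ) (a : ℕ) (gs : List Gate) :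
    smulCount (.smul c a :: gs) = smulCount gs + 1 := by
  simp [smulCount, isLinearCombination, List.countP_cons]

lemma getD_mem_or_zero {V : Type*} [Zero V] (L : List V) (a : ℕ) :
    L.getD a 0 ∈ L ∨ L.getD a 0 = 0 := by
  by_cases h : a < L.length
  · left
    rw [List.getD_eq_getElem _ _ h]
    exact List.getElem_mem _
  · right
    exact List.getD_eq_default _ _ (Nat.le_of_not_lt h)

variable {n : ℕ}

/-- The support of `v` lies in one class of the labelling `comp`. -/
def Classed (comp : Fin n → ℕ) (v : Fin n → ℂ) : Prop := ∃ ℓ, ∀ j, v j ≠ 0 → comp j = ℓ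

lemma classed_zero (comp : Fin n → ℕ) : Classed comp (0 : Fin n → ℂ) :=
  ⟨0, fun j hj => absurd rfl hj⟩

lemma classed_smul {comp : Fin n → ℕ} {v : Fin n → ℂ} (c : ℂ) (h : Classed comp v) :
    Classed comp (c • v) := by
  obtain ⟨ℓ, hℓ⟩ := h
  refine ⟨ℓ, fun j hj => hℓ j ?_⟩
  intro h0
  apply hj
  simp [h0]

open Classical in
/-- Number of rows of `r` that are already present, up to a nonzero factor, in `L`. -/
noncomputable def present (r : Fin n → Fin n → ℂ) (L : List (Fin n → ℂ)) : ℕ :=
  (univ.filter (fun k => ∃ v ∈ L, ∃ c : ℂ, c ≠ 0 ∧ v = c • r k)).card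

/-- The invariant of the additive count. -/
def AddInv (r : Fin n → Fin n → ℂ) (L : List (Fin n → ℂ)) (a : ℕ) : Prop :=
  ∃ comp : Fin n → ℕ, (∀ v ∈ L, Classed comp v) ∧
    2 * n - 2 ≤ a + ((univ.image comp).card - 2) + (n - present r L)

lemma addInv_smul {r : Fin n → Fin n → ℂ} (hr : ∀ k j, r k j ≠ 0) {L : List (Fin n → ℂ)} {a : ℕ}
    (hn : n ≠ 0) (h : AddInv r L a) (c : ℂ) (i : ℕ) :
    AddInv r (L ++ [c • L.getD i 0]) a := by
  classical
  obtain ⟨comp, hcomp, hbound⟩ := h
  refine ⟨comp, ?_, ?_⟩
  · intro v hv
    rcases List.mem_append.1 hv with hv | hv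
    · exact hcomp v hv
    · rw [List.mem_singleton] at hv
      subst hv
      apply classed_smul
      rcases getD_mem_or_zero L i with h' | h'
      · exact hcomp _ h'
      · rw [h']; exact classed_zero _
  · -- nothing new is present
    have hsub : present r (L ++ [c • L.getD i 0]) ≤ present r L := by
      unfold present
      apply Finset.card_le_card
      intro k hk
      simp only [mem_filter, mem_univ, true_and] at hk ⊢
      obtain ⟨v, hv, d, hd, hvd⟩ := hk
      rcases List.mem_append.1 hv with hv' | hv'
      · exact ⟨v, hv', d, hd, hvd⟩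
      · rw [List.mem_singleton] at hv'
        subst hv'
        -- `c • u = d • r k` with `d ≠ 0`, so `c ≠ 0` and `u` is a nonzero multiple of `r k`
        have hc : c ≠ 0 := by
          rintro rfl
          have h0 := congrFun hvd ⟨0, Nat.pos_of_ne_zero hn⟩
          simp only [Pi.smul_apply, smul_eq_mul, zero_mul] at h0
          exact (mul_ne_zero hd (hr k _)) h0.symm
        have hu : L.getD i 0 = (c⁻¹ * d) • r k := by
          rw [mul_smul, ← hvd, smul_smul, inv_mul_cancel₀ hc, one_smul]
        have hne : L.getD i 0 ≠ 0 := by
          intro h0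
          rw [h0] at hu
          have h1 := congrFun hu ⟨0, Nat.pos_of_ne_zero hn⟩
          simp only [Pi.zero_apply, Pi.smul_apply, smul_eq_mul] at h1
          exact (mul_ne_zero (mul_ne_zero (inv_ne_zero hc) hd) (hr k _)) h1.symm
        rcases getD_mem_or_zero L i with h' | h'
        · exact ⟨_, h', c⁻¹ * d, mul_ne_zero (inv_ne_zero hc) hd, hu⟩
        · exact absurd h' hne
    omega

/-- An addition-like gate: the new form has support inside the union of two classed supports. -/
lemma addInv_merge {r : Fin n → Fin n → ℂ} (hr : ∀ k j, r k j ≠ 0)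
    (hprop : ∀ {k k' : Fin n} {c c' : ℂ}, c ≠ 0 → c • r k = c' • r k' → k = k')
    {L : List (Fin n → ℂ)} {a : ℕ} (h : AddInv r L a) (u v w : Fin n → ℂ)
    (hu : u ∈ L ∨ u = 0) (hv : v ∈ L ∨ v = 0) (hw : ∀ j, w j ≠ 0 → u j ≠ 0 ∨ v j ≠ 0) :
    AddInv r (L ++ [w]) (a + 1) := by
  classical
  obtain ⟨comp, hcomp, hbound⟩ := h
  have hcu : Classed comp u := by
    rcases hu with hu | hu
    · exact hcomp u hu
    · rw [hu]; exact classed_zero _
  have hcv : Classed comp v := by
    rcases hv with hv | hv
    · exact hcomp v hv
    · rw [hv]; exact classed_zero _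
  obtain ⟨ℓu, hℓu⟩ := hcu
  obtain ⟨ℓv, hℓv⟩ := hcv
  let comp' : Fin n → ℕ := fun j => if comp j = ℓv then ℓu else comp j
  have hcomp'u : ∀ j, w j ≠ 0 → comp' j = ℓu := by
    intro j hj
    rcases hw j hj with h1 | h1
    · have := hℓu j h1
      simp only [comp', this]
      split_ifs <;> rfl
    · have := hℓv j h1
      simp only [comp', this, if_true]
  have hcard : (univ.image comp).card ≤ (univ.image comp').card + 1 := by
    have : univ.image comp ⊆ insert ℓv (univ.image comp') := by
      intro x hx
      obtain ⟨j, -, rfl⟩ := mem_image.1 hx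
      by_cases hj : comp j = ℓv
      · rw [hj]; exact mem_insert_self _ _
      · apply mem_insert_of_mem
        exact mem_image.2 ⟨j, mem_univ _, by simp [comp', hj]⟩
    calc (univ.image comp).card ≤ (insert ℓv (univ.image comp')).card := card_le_card this
      _ ≤ _ := card_insert_le _ _
  have hclassed : ∀ x ∈ L ++ [w], Classed comp' x := by
    intro x hx
    rcases List.mem_append.1 hx with hx | hx
    · obtain ⟨ℓ, hℓ⟩ := hcomp x hx
      refine ⟨if ℓ = ℓv then ℓu else ℓ, fun j hj => ?_⟩
      simp only [comp', hℓ j hj]
    · rw [List.mem_singleton] at hx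
      subst hx
      exact ⟨ℓu, hcomp'u⟩
  refine ⟨comp', hclassed, ?_⟩
  by_cases hnew : ∃ k, ∃ c : ℂ, c ≠ 0 ∧ w = c • r k
  · -- `w` is a multiple of a row: everything is one class now
    obtain ⟨k₀, c₀, hc₀, hw₀⟩ := hnew
    have hfull : ∀ j, w j ≠ 0 := by
      intro j
      rw [hw₀]
      simp only [Pi.smul_apply, smul_eq_mul]
      exact mul_ne_zero hc₀ (hr k₀ j)
    have hone : (univ.image comp').card ≤ 1 := by
      apply card_le_one.2
      intro x hx y hy
      obtain ⟨j, -, rfl⟩ := mem_image.1 hx
      obtain ⟨j', -, rfl⟩ := mem_image.1 hy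
      rw [hcomp'u j (hfull j), hcomp'u j' (hfull j')]
    have hp : present r (L ++ [w]) ≤ present r L + 1 := by
      unfold present
      have hsub : univ.filter (fun k => ∃ x ∈ L ++ [w], ∃ c : ℂ, c ≠ 0 ∧ x = c • r k) ⊆
          insert k₀ (univ.filter (fun k => ∃ x ∈ L, ∃ c : ℂ, c ≠ 0 ∧ x = c • r k)) := by
        intro k hk
        simp only [mem_filter, mem_univ, true_and] at hk
        obtain ⟨x, hx, d, hd, hxd⟩ := hk
        rcases List.mem_append.1 hx with hx' | hx'
        · apply mem_insert_of_mem
          simp only [mem_filter, mem_univ, true_and]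
          exact ⟨x, hx', d, hd, hxd⟩
        · rw [List.mem_singleton] at hx'
          subst hx'
          have : k = k₀ := hprop hd (by rw [← hxd, hw₀])
          rw [this]
          exact mem_insert_self _ _
      exact (card_le_card hsub).trans (card_insert_le _ _)
    omega
  · have hp : present r (L ++ [w]) ≤ present r L := by
      unfold present
      apply card_le_card
      intro k hk
      simp only [mem_filter, mem_univ, true_and] at hk ⊢
      obtain ⟨x, hx, d, hd, hxd⟩ := hk
      rcases List.mem_append.1 hx with hx' | hx'
      · exact ⟨x, hx', d, hd, hxd⟩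
      · rw [List.mem_singleton] at hx'
        subst hx'
        exact absurd ⟨k, d, hd, hxd⟩ hnew
    omega

lemma addInv_run {r : Fin n → Fin n → ℂ} (hn : n ≠ 0) (hr : ∀ k j, r k j ≠ 0)
    (hprop : ∀ {k k' : Fin n} {c c' : ℂ}, c ≠ 0 → c • r k = c' • r k' → k = k')
    (gs : List Gate) {L : List (Fin n → ℂ)} {a : ℕ} (h : AddInv r L a) :
    AddInv r (runV L gs) (a + addCount gs) := by
  induction gs generalizing L a with
  | nil => simpa using h
  | cons g gs ih =>
    rw [runV_cons]
    cases g with
    | add x y =>
      rw [addCount_cons_add, show a + (addCount gs + 1) = a + 1 + addCount gs by ring]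
      apply ih
      refine addInv_merge hr hprop h (L.getD x 0) (L.getD y 0) _
        (getD_mem_or_zero L x) (getD_mem_or_zero L y) ?_
      intro j hj
      by_contra hcon
      rw [not_or, not_not, not_not] at hcon
      apply hj
      simp only [Gate.evalV, Pi.add_apply, hcon.1, hcon.2, add_zero]
    | sub x y =>
      rw [addCount_cons_sub, show a + (addCount gs + 1) = a + 1 + addCount gs by ring]
      apply ih
      refine addInv_merge hr hprop h (L.getD x 0) (L.getD y 0) _
        (getD_mem_or_zero L x) (getD_mem_or_zero L y) ?_
      intro j hj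
      by_contra hcon
      rw [not_or, not_not, not_not] at hcon
      apply hj
      simp only [Gate.evalV, Pi.sub_apply, hcon.1, hcon.2, sub_zero]
    | smul c x =>
      rw [addCount_cons_smul]
      exact ih (addInv_smul hr hn h c x)

/-- The starting list satisfies the invariant. -/
lemma addInv_init {r : Fin n → Fin n → ℂ} (hn : 2 ≤ n) (hr : ∀ k j, r k j ≠ 0) :
    AddInv r (initForms n) 0 := by
  classical
  refine ⟨fun j => (j : ℕ), ?_, ?_⟩
  · intro v hv
    simp only [initForms, List.mem_append, List.mem_ofFn, List.mem_singleton] at hv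
    rcases hv with ⟨j, rfl⟩ | rfl
    · refine ⟨j, fun i hi => ?_⟩
      by_contra hne
      apply hi
      have : i ≠ j := fun h => hne (by rw [h])
      simp [this]
    · exact classed_zero _
  · have himg : (univ.image (fun j : Fin n => (j : ℕ))).card = n := by
      rw [card_image_of_injective _ Fin.val_injective]
      simp
    have hpres : present r (initForms n) = 0 := by
      unfold present
      rw [card_eq_zero, filter_eq_empty_iff]
      intro k _ hk
      obtain ⟨v, hv, c, hc, hvc⟩ := hk
      simp only [initForms, List.mem_append, List.mem_ofFn, List.mem_singleton] at hv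
      have hall : ∀ j, v j ≠ 0 := by
        intro j
        rw [hvc]
        simp only [Pi.smul_apply, smul_eq_mul]
        exact mul_ne_zero hc (hr k j)
      rcases hv with ⟨j, rfl⟩ | rfl
      · -- a basis vector has a zero coordinate since `n ≥ 2`
        obtain ⟨i, hi⟩ : ∃ i : Fin n, i ≠ j := by
          by_cases h0 : (j : ℕ) = 0
          · exact ⟨⟨1, by omega⟩, fun h => by
              have := congrArg Fin.val h
              simp at this
              omega⟩
          · exact ⟨⟨0, by omega⟩, fun h => by
              have := congrArg Fin.val h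
              simp at this
              omega⟩
        exact hall i (by simp [hi])
      · exact hall ⟨0, by omega⟩ rfl
    rw [himg, hpres]
    omega

/-- **Additive bound**: a list of gates that produces rows `r` (pairwise non-proportional, with
full support) has at least `2 n - 2` additions and subtractions. -/
theorem addCount_ge {r : Fin n → Fin n → ℂ} (hn : 2 ≤ n) (hr : ∀ k j, r k j ≠ 0)
    (hprop : ∀ {k k' : Fin n} {c c' : ℂ}, c ≠ 0 → c • r k = c' • r k' → k = k')
    (gs : List Gate) (hmem : ∀ k, r k ∈ runV (initForms n) gs) :
    2 * n - 2 ≤ addCount gs := by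
  classical
  have hn0 : n ≠ 0 := by omega
  obtain ⟨comp, hcomp, hbound⟩ := addInv_run hn0 hr hprop gs (addInv_init hn hr)
  have hp : present r (runV (initForms n) gs) = n := by
    unfold present
    rw [filter_true_of_mem]
    · simp
    · intro k _
      exact ⟨r k, hmem k, 1, one_ne_zero, (one_smul _ _).symm⟩
  have hone : (univ.image comp).card ≤ 1 := by
    obtain ⟨ℓ, hℓ⟩ := hcomp _ (hmem ⟨0, by omega⟩)
    apply card_le_one.2
    intro x hx y hy
    obtain ⟨j, -, rfl⟩ := mem_image.1 hx
    obtain ⟨j', -, rfl⟩ := mem_image.1 hy
    rw [hℓ j (hr _ j), hℓ j' (hr _ j')]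
  rw [hp] at hbound
  omega

end Vale.Agent.P344
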