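import Mathlib

/-!
# Linear circuits for the discrete Fourier transform

Wire addresses: `0, …, n-1` are the inputs `x_0, …, x_{n-1}`, address `n` is the constant `0`,
and address `n + 1 + t` is the value of gate number `t`.  A gate can only read the wires computed
before it; an address that does not exist yet reads as the constant `0`.
-/

namespace Vale.Agent.P344

/-- A gate of a linear circuit: `u + v`, `u - v` or `c * u`, where `u, v` are wires named by
their addresses. -/
inductive Gate where
  | add (a b : ℕ) : Gate
  | sub (a b : ℕ) : Gate
  | smul (c : ℂ) (a : ℕ) : Gate

/-- The value of a gate, given the list of the wire values computed before it. -/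
noncomputable def Gate.eval (vals : List ℂ) : Gate → ℂ
  | .add a b => vals.getD a 0 + vals.getD b 0
  | .sub a b => vals.getD a 0 - vals.getD b 0
  | .smul c a => c * vals.getD a 0

/-- All wire values of the circuit with the given gates on input `x`: first the inputs, then the
constant `0`, then the values of the gates in order. -/
noncomputable def wires {n : ℕ} (x : Fin n → ℂ) (gates : List Gate) : List ℂ :=
  gates.foldl (fun vals g => vals ++ [g.eval vals]) (List.ofFn x ++ [0])

/-- The root of unity `ζ_n = exp (2 π i / n)`. -/
noncomputable def zeta (n : ℕ) : ℂ := Complex.exp (2 * Real.pi * Complex.I / n)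

/-- The circuit with these gates and output addresses computes `F_n x = (∑_j ζ_n^{jk} x_j)_k`
exactly, for every `x ∈ ℂⁿ`. -/
def ComputesDFT (n : ℕ) (gates : List Gate) (output : Fin n → ℕ) : Prop :=
  ∀ (x : Fin n → ℂ) (k : Fin n),
    (wires x gates).getD (output k) 0 = ∑ j : Fin n, zeta n ^ ((j : ℕ) * (k : ℕ)) * x j

/-- Whether a gate has the form `u + v` or `u - v` (and not `c * u`). -/
def isLinearCombination : Gate → Bool
  | .smul _ _ => false
  | _ => true

/-- Number of gates of the form `u + v` or `u - v`. -/
def addCount (gs : List Gate) : ℕ := gs.countP isLinearCombination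

/-- Number of gates of the form `c * u`. -/
def smulCount (gs : List Gate) : ℕ := gs.countP (fun g => !isLinearCombination g)

end Vale.Agent.P344
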