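import Vale.Agent.P344.Defs

/-!
Evaluation of a circuit on linear forms and the reduction of `ComputesDFT` to a statement about
lists of coefficient vectors.
-/

namespace Vale.Agent.P344

variable {V : Type*} [AddCommGroup V] [Module ℂ V]

/-- Gate evaluation in an arbitrary complex vector space. -/
noncomputable def Gate.evalV (vals : List V) : Gate → V
  | .add a b => vals.getD a 0 + vals.getD b 0
  | .sub a b => vals.getD a 0 - vals.getD b 0
  | .smul c a => c • vals.getD a 0

/-- Running a list of gates in a vector space. -/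
noncomputable def runV (init : List V) (gates : List Gate) : List V :=
  gates.foldl (fun vals g => vals ++ [g.evalV vals]) init

@[simp] lemma runV_nil (init : List V) : runV init [] = init := rfl

@[simp] lemma runV_cons (init : List V) (g : Gate) (gs : List Gate) :
    runV init (g :: gs) = runV (init ++ [g.evalV init]) gs := rfl

lemma getD_map_zero {W : Type*} [AddCommGroup W] [Module ℂ W] (ψ : V →ₗ[ℂ] W) (L : List V) (a : ℕ) :
    (L.map ψ).getD a 0 = ψ (L.getD a 0) := by
  by_cases h : a < L.length
  · rw [List.getD_eq_getElem _ _ (by simpa using h), List.getD_eq_getElem _ _ h]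
    simp
  · have h' : L.length ≤ a := Nat.le_of_not_lt h
    rw [List.getD_eq_default _ _ (by simpa using h'), List.getD_eq_default _ _ h']
    simp

lemma evalV_map {W : Type*} [AddCommGroup W] [Module ℂ W] (ψ : V →ₗ[ℂ] W) (L : List V) (g : Gate) :
    g.evalV (L.map ψ) = ψ (g.evalV L) := by
  cases g <;> simp only [Gate.evalV, getD_map_zero, map_add, map_sub, map_smul]

lemma runV_map {W : Type*} [AddCommGroup W] [Module ℂ W] (ψ : V →ₗ[ℂ] W) (gs : List Gate) (L : List V) :
    runV (L.map ψ) gs = (runV L gs).map ψ := by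
  induction gs generalizing L with
  | nil => rfl
  | cons g gs ih =>
    simp only [runV_cons]
    rw [← ih]
    simp [evalV_map]

lemma eval_eq_evalV (L : List ℂ) (g : Gate) : g.eval L = g.evalV L := by
  cases g <;> simp only [Gate.eval, Gate.evalV, smul_eq_mul]

lemma wires_eq_runV {n : ℕ} (x : Fin n → ℂ) (gs : List Gate) :
    wires x gs = runV (List.ofFn x ++ [0]) gs := by
  unfold wires runV
  simp only [eval_eq_evalV]

/-- The input wires as coefficient vectors. -/
noncomputable def initForms (n : ℕ) : List (Fin n → ℂ) :=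
  List.ofFn (fun j : Fin n => (Pi.single j (1 : ℂ) : Fin n → ℂ)) ++ [0]

/-- Pairing a coefficient vector with an input. -/
noncomputable def pairing {n : ℕ} (x : Fin n → ℂ) : (Fin n → ℂ) →ₗ[ℂ] ℂ where
  toFun f := ∑ j, f j * x j
  map_add' f g := by simp [add_mul, Finset.sum_add_distrib]
  map_smul' c f := by simp [Finset.mul_sum, mul_assoc]

@[simp] lemma pairing_apply {n : ℕ} (x f : Fin n → ℂ) : pairing x f = ∑ j, f j * x j := rfl

lemma pairing_single {n : ℕ} (x : Fin n → ℂ) (j : Fin n) :
    pairing x (Pi.single j 1) = x j := by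
  classical
  simp only [pairing_apply, Pi.single_apply, ite_mul, one_mul, zero_mul]
  simp

lemma initForms_map {n : ℕ} (x : Fin n → ℂ) :
    (initForms n).map (pairing x) = List.ofFn x ++ [0] := by
  simp only [initForms, List.map_append, List.map_ofFn, List.map_cons, List.map_nil, map_zero]
  congr 2
  funext j
  exact pairing_single x j

/-- Wires on an input are the pairing of the wires on forms with that input. -/
lemma wires_eq_map {n : ℕ} (x : Fin n → ℂ) (gs : List Gate) :
    wires x gs = (runV (initForms n) gs).map (pairing x) := by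
  rw [wires_eq_runV, ← initForms_map, runV_map]

/-- `k`-th row of `F_n`. -/
noncomputable def row (n : ℕ) (k : Fin n) : Fin n → ℂ :=
  fun j => zeta n ^ ((j : ℕ) * (k : ℕ))

/-- A circuit computing the DFT computes each row of `F_n` as a coefficient vector. -/
lemma row_eq_getD {n : ℕ} {gs : List Gate} {out : Fin n → ℕ} (h : ComputesDFT n gs out)
    (k : Fin n) : (runV (initForms n) gs).getD (out k) 0 = row n k := by
  funext j
  have hj := h (Pi.single j 1) k
  rw [wires_eq_map, getD_map_zero (pairing (Pi.single j 1))] at hj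
  simp only [pairing_apply, Pi.single_apply, mul_ite, mul_one, mul_zero, Finset.sum_ite_eq',
    Finset.mem_univ, if_true] at hj
  simpa [row] using hj

lemma zeta_isPrimitiveRoot {n : ℕ} (hn : n ≠ 0) : IsPrimitiveRoot (zeta n) n :=
  Complex.isPrimitiveRoot_exp n hn

lemma zeta_ne_zero {n : ℕ} (hn : n ≠ 0) : zeta n ≠ 0 :=
  (zeta_isPrimitiveRoot hn).ne_zero hn

lemma row_ne_zero {n : ℕ} (hn : n ≠ 0) (k j : Fin n) : row n k j ≠ 0 :=
  pow_ne_zero _ (zeta_ne_zero hn)

/-- Rows occur in the form list as members. -/
lemma row_mem {n : ℕ} (hn : n ≠ 0) {gs : List Gate} {out : Fin n → ℕ} (h : ComputesDFT n gs out)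
    (k : Fin n) : row n k ∈ runV (initForms n) gs := by
  have hr := row_eq_getD h k
  by_cases hlt : out k < (runV (initForms n) gs).length
  · rw [List.getD_eq_getElem _ _ hlt] at hr
    rw [← hr]
    exact List.getElem_mem _
  · exfalso
    rw [List.getD_eq_default _ _ (Nat.le_of_not_lt hlt)] at hr
    have := row_ne_zero hn k ⟨0, Nat.pos_of_ne_zero hn⟩
    rw [← hr] at this
    simp at this

/-- Rows of `F_n` are pairwise non-proportional. -/
lemma row_proportional {n : ℕ} (hn : 2 ≤ n) {k k' : Fin n} {c c' : ℂ} (hc : c ≠ 0)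
    (h : c • row n k = c' • row n k') : k = k' := by
  have hn0 : n ≠ 0 := by omega
  have h0 := congrFun h ⟨0, by omega⟩
  have h1 := congrFun h ⟨1, by omega⟩
  simp only [row, Pi.smul_apply, smul_eq_mul, zero_mul, pow_zero, mul_one, one_mul] at h0 h1
  rw [← h0] at h1
  have h2 : zeta n ^ (k : ℕ) = zeta n ^ (k' : ℕ) := mul_left_cancel₀ hc h1
  have := (zeta_isPrimitiveRoot hn0).pow_inj k.isLt k'.isLt h2
  exact Fin.ext this

end Vale.Agent.P344
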