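import Vale.Agent.P344.Additive

/-!
Every circuit computing `F_n` has at least `n - τ(n)` scalar gates: additions and subtractions do
not enlarge the `ℚ`-span of the computed forms, a scalar gate enlarges it by at most one, and the
`ℚ`-span of the inputs and the rows of `F_n` has dimension at least `2 n - τ(n)`.
-/

namespace Vale.Agent.P344

open Polynomial Module

variable {n : ℕ}

/-- The `ℚ`-span of a list of coefficient vectors. -/
noncomputable def qspan (L : List (Fin n → ℂ)) : Submodule ℚ (Fin n → ℂ) :=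
  Submodule.span ℚ {v | v ∈ L}

instance qspan_finiteDimensional (L : List (Fin n → ℂ)) : FiniteDimensional ℚ (qspan L) :=
  FiniteDimensional.span_of_finite ℚ (List.finite_toSet L)

lemma mem_qspan_of_mem {L : List (Fin n → ℂ)} {v : Fin n → ℂ} (h : v ∈ L) : v ∈ qspan L :=
  Submodule.subset_span h

lemma getD_mem_qspan (L : List (Fin n → ℂ)) (a : ℕ) : L.getD a 0 ∈ qspan L := by
  rcases getD_mem_or_zero L a with h | h
  · exact mem_qspan_of_mem h
  · rw [h]; exact Submodule.zero_mem _

lemma qspan_append (L : List (Fin n → ℂ)) (w : Fin n → ℂ) :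
    qspan (L ++ [w]) = qspan L ⊔ Submodule.span ℚ {w} := by
  unfold qspan
  rw [← Submodule.span_union]
  congr 1
  ext v
  simp [or_comm]

lemma qspan_append_of_mem {L : List (Fin n → ℂ)} {w : Fin n → ℂ} (h : w ∈ qspan L) :
    qspan (L ++ [w]) = qspan L := by
  rw [qspan_append]
  apply sup_eq_left.2
  rwa [Submodule.span_singleton_le_iff_mem]

lemma finrank_qspan_append_le (L : List (Fin n → ℂ)) (w : Fin n → ℂ) :
    finrank ℚ (qspan (L ++ [w])) ≤ finrank ℚ (qspan L) + 1 := by
  rw [qspan_append]
  refine (Submodule.finrank_add_le_finrank_add_finrank _ _).trans ?_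
  gcongr
  have := finrank_span_le_card (R := ℚ) ({w} : Set (Fin n → ℂ))
  simpa using this

lemma finrank_qspan_run_le (gs : List Gate) (L : List (Fin n → ℂ)) :
    finrank ℚ (qspan (runV L gs)) ≤ finrank ℚ (qspan L) + smulCount gs := by
  induction gs generalizing L with
  | nil => simp only [runV_nil, smulCount_nil, add_zero]; exact le_rfl
  | cons g gs ih =>
    rw [runV_cons]
    refine (ih _).trans ?_
    cases g with
    | add x y =>
      rw [smulCount_cons_add, qspan_append_of_mem]
      exact Submodule.add_mem _ (getD_mem_qspan L x) (getD_mem_qspan L y)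
    | sub x y =>
      rw [smulCount_cons_sub, qspan_append_of_mem]
      exact Submodule.sub_mem _ (getD_mem_qspan L x) (getD_mem_qspan L y)
    | smul c x =>
      rw [smulCount_cons_smul]
      have := finrank_qspan_append_le L (Gate.evalV L (Gate.smul c x))
      omega

lemma subset_runV (gs : List Gate) (L : List (Fin n → ℂ)) : ∀ v ∈ L, v ∈ runV L gs := by
  induction gs generalizing L with
  | nil => simp
  | cons g gs ih =>
    intro v hv
    rw [runV_cons]
    exact ih _ v (List.mem_append.2 (Or.inl hv))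

/-- The inclusion of rational vectors into complex vectors. -/
noncomputable def ratIncl : (Fin n → ℚ) →ₗ[ℚ] (Fin n → ℂ) where
  toFun q j := (q j : ℂ)
  map_add' p q := by funext j; simp
  map_smul' c q := by funext j; simp [Rat.smul_def]

lemma ratIncl_apply (q : Fin n → ℚ) (j : Fin n) : ratIncl q j = (q j : ℂ) := rfl

lemma ratIncl_injective : Function.Injective (ratIncl (n := n)) := by
  intro p q h
  funext j
  have := congrFun h j
  simpa [ratIncl_apply] using this

/-- The rational vectors inside `ℂⁿ`. -/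
noncomputable def ratSpace (n : ℕ) : Submodule ℚ (Fin n → ℂ) := LinearMap.range ratIncl

instance ratSpace_finiteDimensional : FiniteDimensional ℚ (ratSpace n) := by
  unfold ratSpace
  infer_instance

lemma finrank_ratSpace : finrank ℚ (ratSpace n) = n := by
  unfold ratSpace
  rw [LinearMap.finrank_range_of_inj ratIncl_injective]
  simp

lemma qspan_init_le : qspan (initForms n) ≤ ratSpace n := by
  unfold qspan
  rw [Submodule.span_le]
  intro v hv
  change v ∈ initForms n at hv
  simp only [initForms, List.mem_append, List.mem_ofFn, List.mem_singleton] at hv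
  rcases hv with ⟨j, rfl⟩ | rfl
  · refine ⟨Pi.single j 1, ?_⟩
    funext i
    by_cases h : i = j
    · subst h; simp [ratIncl_apply]
    · simp [ratIncl_apply, h]
  · exact Submodule.zero_mem _

lemma ratSpace_le_qspan_init : ratSpace n ≤ qspan (initForms n) := by
  classical
  rintro _ ⟨q, rfl⟩
  have : ratIncl q = ∑ j, q j • (Pi.single j (1 : ℂ) : Fin n → ℂ) := by
    funext i
    simp only [ratIncl_apply, Finset.sum_apply, Pi.smul_apply, Pi.single_apply]
    rw [Finset.sum_eq_single i]
    · simp [Rat.smul_def]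
    · intro b _ hb
      simp [Ne.symm hb]
    · simp
  rw [this]
  apply Submodule.sum_mem
  intro j _
  apply Submodule.smul_mem
  apply mem_qspan_of_mem
  simp only [initForms, List.mem_append, List.mem_ofFn, List.mem_singleton]
  exact Or.inl ⟨j, rfl⟩

/-- The `ℚ`-span of the rows of `F_n`. -/
noncomputable def rowSpace (n : ℕ) : Submodule ℚ (Fin n → ℂ) :=
  Submodule.span ℚ (Set.range (row n))

instance rowSpace_finiteDimensional : FiniteDimensional ℚ (rowSpace n) :=
  FiniteDimensional.span_of_finite ℚ (Set.finite_range _)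

lemma row_linearIndependent (hn : n ≠ 0) : LinearIndependent ℚ (row n) := by
  have hdet : (Matrix.vandermonde (fun k : Fin n => zeta n ^ (k : ℕ))).det ≠ 0 := by
    rw [Matrix.det_vandermonde_ne_zero_iff]
    intro a b hab
    exact Fin.ext ((zeta_isPrimitiveRoot hn).pow_inj a.isLt b.isLt hab)
  have hli : LinearIndependent ℂ (Matrix.vandermonde (fun k : Fin n => zeta n ^ (k : ℕ))).row :=
    Matrix.linearIndependent_rows_of_det_ne_zero hdet
  have hrow : (Matrix.vandermonde (fun k : Fin n => zeta n ^ (k : ℕ))).row = row n := by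
    funext k j
    simp [row, Matrix.vandermonde_apply, ← pow_mul, mul_comm]
  rw [hrow] at hli
  exact hli.restrict_scalars (by
    intro a b hab
    simpa using hab)

lemma finrank_rowSpace (hn : n ≠ 0) : finrank ℚ (rowSpace n) = n := by
  unfold rowSpace
  rw [finrank_span_eq_card (row_linearIndependent hn)]
  simp

lemma prim_pow (hn : n ≠ 0) (j : ℕ) :
    IsPrimitiveRoot (zeta n ^ j) (n / Nat.gcd n j) := by
  by_cases hj : j = 0
  · subst hj
    simp only [pow_zero, Nat.gcd_zero_right, Nat.div_self (Nat.pos_of_ne_zero hn)]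
    exact IsPrimitiveRoot.one
  · have h := IsPrimitiveRoot.orderOf (zeta n ^ j)
    rwa [orderOf_pow' _ hj, ← (zeta_isPrimitiveRoot hn).eq_orderOf] at h

/-- A rational vector in the `ℚ`-span of the rows is constant on `gcd`-classes of coordinates. -/
lemma class_constant (hn : n ≠ 0) {q : Fin n → ℚ} (hq : ratIncl q ∈ rowSpace n) {j j' : Fin n}
    (hg : Nat.gcd n j = Nat.gcd n j') : q j = q j' := by
  obtain ⟨c, hc⟩ := (Submodule.mem_span_range_iff_exists_fun ℚ).1 hq
  let P : ℚ[X] := ∑ k : Fin n, C (c k) * X ^ (k : ℕ)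
  have hP : ∀ i : Fin n, aeval (zeta n ^ (i : ℕ)) P = (q i : ℂ) := by
    intro i
    have h1 := congrFun hc i
    rw [ratIncl_apply] at h1
    rw [← h1]
    simp only [P, map_sum, map_mul, aeval_C, map_pow, aeval_X, Finset.sum_apply, Pi.smul_apply,
      row]
    apply Finset.sum_congr rfl
    intro k _
    rw [Rat.smul_def, ← pow_mul, eq_ratCast]
  set d := n / Nat.gcd n j with hd
  have hμ : IsPrimitiveRoot (zeta n ^ (j : ℕ)) d := prim_pow hn j
  have hμ' : IsPrimitiveRoot (zeta n ^ (j' : ℕ)) d := by
    rw [hd, hg]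
    exact prim_pow hn j'
  have hnpos : 0 < n := Nat.pos_of_ne_zero hn
  have hdpos : 0 < d :=
    Nat.div_pos (Nat.gcd_le_left _ hnpos) (Nat.gcd_pos_of_pos_left _ hnpos)
  have hm : minpoly ℚ (zeta n ^ (j : ℕ)) = minpoly ℚ (zeta n ^ (j' : ℕ)) := by
    rw [← cyclotomic_eq_minpoly_rat hμ hdpos, ← cyclotomic_eq_minpoly_rat hμ' hdpos]
  have hdvd : minpoly ℚ (zeta n ^ (j : ℕ)) ∣ P - C (q j) := by
    apply minpoly.dvd
    simp [hP j]
  obtain ⟨R, hR⟩ := hdvd
  have h0 : aeval (zeta n ^ (j' : ℕ)) (P - C (q j)) = 0 := by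
    rw [hR, hm, map_mul, minpoly.aeval, zero_mul]
  rw [map_sub, hP j', aeval_C, sub_eq_zero, eq_ratCast] at h0
  exact_mod_cast h0.symm

/-- The rational vectors that lie in the `ℚ`-span of the rows. -/
noncomputable def ratRows (n : ℕ) : Submodule ℚ (Fin n → ℚ) := (rowSpace n).comap ratIncl

lemma finrank_ratRows_le (hn : n ≠ 0) : finrank ℚ (ratRows n) ≤ (Nat.divisors n).card := by
  have hnpos : 0 < n := Nat.pos_of_ne_zero hn
  let idx : (Nat.divisors n) → Fin n := fun d => ⟨(d : ℕ) % n, Nat.mod_lt _ hnpos⟩
  let T : ratRows n →ₗ[ℚ] ((Nat.divisors n) → ℚ) :=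
    (LinearMap.pi fun d => LinearMap.proj (idx d)).comp (ratRows n).subtype
  have hT : Function.Injective T := by
    rw [← LinearMap.ker_eq_bot, LinearMap.ker_eq_bot']
    rintro ⟨q, hq⟩ hTq
    apply Subtype.ext
    funext j
    let g : ℕ := Nat.gcd n j
    have hgmem : g ∈ Nat.divisors n :=
      Nat.mem_divisors.2 ⟨Nat.gcd_dvd_left _ _, hn⟩
    have hval := congrFun hTq ⟨g, hgmem⟩
    have hval' : q (idx ⟨g, hgmem⟩) = 0 := hval
    have hgg : Nat.gcd n j = Nat.gcd n (idx ⟨g, hgmem⟩) := by
      have : ((idx ⟨g, hgmem⟩ : Fin n) : ℕ) = g % n := rfl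
      rw [this, Nat.gcd_comm n (g % n), ← Nat.gcd_rec n g]
      exact (Nat.gcd_eq_right (Nat.gcd_dvd_left n j)).symm
    change q j = 0
    rw [class_constant hn hq hgg, hval']
  have := LinearMap.finrank_le_finrank_of_injective hT
  simpa using this

lemma finrank_inf_le (hn : n ≠ 0) :
    finrank ℚ ↥(ratSpace n ⊓ rowSpace n) ≤ (Nat.divisors n).card := by
  have heq : ratSpace n ⊓ rowSpace n = (ratRows n).map ratIncl := by
    unfold ratSpace ratRows
    rw [Submodule.map_comap_eq]
  rw [heq]
  exact (Submodule.finrank_map_le _ _).trans (finrank_ratRows_le hn)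

/-- **Scalar bound.** -/
theorem smulCount_ge (hn : n ≠ 0) (gs : List Gate) (hmem : ∀ k, row n k ∈ runV (initForms n) gs) :
    n ≤ smulCount gs + (Nat.divisors n).card := by
  have hup := finrank_qspan_run_le gs (initForms n)
  have hinit : finrank ℚ (qspan (initForms n)) ≤ n := by
    calc finrank ℚ (qspan (initForms n)) ≤ finrank ℚ (ratSpace n) :=
          Submodule.finrank_mono qspan_init_le
      _ = n := finrank_ratSpace
  have hle : ratSpace n ⊔ rowSpace n ≤ qspan (runV (initForms n) gs) := by
    apply sup_le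
    · refine ratSpace_le_qspan_init.trans ?_
      exact Submodule.span_mono (fun v hv => subset_runV gs _ v hv)
    · unfold rowSpace
      rw [Submodule.span_le]
      rintro _ ⟨k, rfl⟩
      exact mem_qspan_of_mem (hmem k)
  have hdim := Submodule.finrank_sup_add_finrank_inf_eq (ratSpace n) (rowSpace n)
  rw [finrank_ratSpace, finrank_rowSpace hn] at hdim
  have h1 := Submodule.finrank_mono hle
  have h2 := finrank_inf_le hn
  omega

/-- Every circuit for `F_n` has at least `2 n - 2` additions and subtractions and at least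
`n - τ(n)` scalar gates, so at least `3 n - τ(n) - 2` gates. -/
theorem linear_bound {gs : List Gate} {out : Fin n → ℕ} (hn : 2 ≤ n) (h : ComputesDFT n gs out) :
    2 * n - 2 ≤ addCount gs ∧ n ≤ smulCount gs + (Nat.divisors n).card ∧
      3 * n ≤ gs.length + (Nat.divisors n).card + 2 := by
  have hn0 : n ≠ 0 := by omega
  have hmem := row_mem hn0 h
  have h1 := addCount_ge hn (row_ne_zero hn0) (fun hc h' => row_proportional hn hc h') gs hmem
  have h2 := smulCount_ge hn0 gs hmem
  have h3 := addCount_add_smulCount gs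
  refine ⟨h1, h2, ?_⟩
  omega

end Vale.Agent.P344
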